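import Vale.Agent.P217.Main
import Vale.Agent.P217.EF.Block
import Vale.Agent.P217.Sym.Dictionary
import Vale.Agent.P217.Univ.Action

/-!
# P217, question 1: the invariant prime and radical ideals of the Lubin-Tate ring

The ideals, the dictionary of symmetries, the universality of F, and the action of each pair.
-/

namespace Vale.Agent.Results.P217.ChaiInvariant

open Vale.Agent.P217

theorem result : ChaiStatement ∧ SymmetryDictionary ∧ Universality ∧ StabiliserAction :=
  ⟨chai_of_rest blockEF, symmetryDictionary, universality, stabiliserAction⟩

end Vale.Agent.Results.P217.ChaiInvariant
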